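import Crest.Agent.X212.Cls19.Main
import Crest.Agent.X212.Tau19.TL
import Crest.Agent.X212.Lab56.Eqv
import Crest.Agent.X212.Lab56.Lab
import Crest.Agent.X212.Bor5.Th

-- ▼ part X212/Cls19/Rfl
section

/-!
# X212 / Cls19, part Rfl (helper19): the twists `τ`, `r_E` reflect the labels of spin^c data

* `exists_sqrt_dfm`, `exists_iw_dfm` : extension of intertwiners along a deformation;
* `dfm_graph`, `dfm_disc` : the complement of the axis deforms out of a half disc;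
* `lab_move`, `lab_tau`, `lab_tau_wd`.
-/

set_option autoImplicit false
set_option linter.unusedSectionVars false

open Set Filter Topology Function Matrix Metric
open scoped ContDiff Manifold
open Crest.Agent.X212.Pj41 Crest.Agent.X212.Line51 Crest.Agent.X212.Pic56 Crest.Agent.X212.Met55
open Crest.Agent.X212.Rod53 hiding Uni X
open Crest.Agent.X212.Glue52 (dir)
open Crest.Agent.X212.Lab56 (Sc Iw Eqv Dfm kk kk_smul)
open Complex (exp log)

noncomputable section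

namespace Crest.Agent.X212.Cls19

section gen

variable {E : Type} [NormedAddCommGroup E] [NormedSpace ℝ E] [FiniteDimensional ℝ E]
  {H : Type} [TopologicalSpace H] {I : ModelWithCorners ℝ E H} [I.Boundaryless]
  {M : Type} [TopologicalSpace M] [ChartedSpace H M] [IsManifold I ∞ M]
  {ι ι' κ l : Type} [Fintype ι] [Fintype ι'] [Fintype κ] [Fintype l] [DecidableEq ι] [DecidableEq ι']
  [DecidableEq κ] [DecidableEq l] {O O₀ : Set M} {x : M} {c G : M → ℂ}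

theorem fsm_of_sq (hc : ContinuousAt c x) (hG : FSm I G x) (e : ∀ᶠ y in 𝓝 x, c y ^ 2 = G y)
    (h0 : c x ≠ 0) : FSm I c x := by
  have g0 : G x ≠ 0 := e.self_of_nhds ▸ pow_ne_zero 2 h0
  have g1 : G x * (G x)⁻¹ ∈ Complex.slitPlane := by simp [g0]
  have h1 : FSm I (fun y => c x * exp (log (G y * (G x)⁻¹) * 2⁻¹)) x :=
    FSm.mul' contMDiffAt_const (((Complex.contDiff_exp (𝕜 := ℝ)).contDiffAt).comp_contMDiffAt
      (FSm.mul' (fsm_log (FSm.mul' hG contMDiffAt_const) g1) contMDiffAt_const))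
  refine h1.congr_of_eventuallyEq ?_
  filter_upwards [e, (hc.add h1.continuousAt).eventually_ne (y := 0) (by simp [g0, h0]),
    (hG.continuousAt.mul_const (G x)⁻¹).eventually_ne (y := 0) (by simp [g0])] with y a b d
  refine (sq_eq_sq_iff_eq_or_eq_neg.1 ?_).resolve_right fun k => b (by rw [Pi.add_apply, k, neg_add_cancel])
  rw [a, mul_pow, e.self_of_nhds, ← Complex.exp_nat_mul, Nat.cast_ofNat, mul_comm (log _),
    mul_inv_cancel_left₀ two_ne_zero, Complex.exp_log d]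
  field_simp

theorem exists_sqrt_dfm (k : Dfm O O₀) (hO : IsOpen O) (h0 : O₀ ⊆ O)
    (hG : ∀ x ∈ O, FSm I G x ∧ ‖G x‖ = 1) (hc : ContinuousOn c O₀) (e : ∀ x ∈ O₀, c x ^ 2 = G x) :
    ∃ c' : M → ℂ, ∀ x ∈ O, FSm I c' x ∧ ‖c' x‖ = 1 ∧ c' x ^ 2 = G x := by
  obtain ⟨h, a1, a2, a3, a4⟩ := k
  have n : ∀ x ∈ O, G x ≠ 0 := fun x hx => norm_ne_zero_iff.1 ((hG x hx).2 ▸ one_ne_zero)
  have cG : ContinuousOn G O := fun x hx => (hG x hx).1.continuousAt.continuousWithinAt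
  have c0 : ContinuousOn (fun x => h (0, x)) O :=
    a1.comp (by fun_prop) fun x hx => ⟨⟨le_rfl, zero_le_one⟩, hx⟩
  obtain ⟨L, b1, b2⟩ := (HasLog.of_deform (φ := fun z : M × M => G z.1 * (G z.2)⁻¹) (S' := O ×ˢ O)
    (S := {z | z.1 ∈ O ∧ z.2 = h (0, z.1)}) (S₀ := {z | z.1 = z.2 ∧ z.2 ∈ O})
    (h := fun q => (h (q.1, q.2.1), q.2.2))
    ((cG.comp continuousOn_fst fun _ a => a.1).mul
      ((cG.comp continuousOn_snd fun _ a => a.2).inv₀ fun _ a => n _ a.2))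
    (fun _ a => mul_ne_zero (n _ a.1) (inv_ne_zero (n _ a.2)))
    ((a1.comp (by fun_prop) fun _ a => ⟨a.1, a.2.1⟩).prodMk (by fun_prop))
    (fun t ht z hz => ⟨a2 t ht _ hz.1, hz.2 ▸ h0 (a3 _ hz.1)⟩)
    (fun z hz => ⟨hz.2.symm, show z.2 ∈ O from hz.2 ▸ h0 (a3 _ hz.1)⟩) (fun z hz => by rw [a4 _ hz.1])
    ((HasLog.const one_ne_zero _).congr fun z hz => by rw [hz.1, mul_inv_cancel₀ (n _ hz.2)])).comp
      (g := fun x => (x, h (0, x))) (continuousOn_id.prodMk c0) fun _ a => ⟨a, rfl⟩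
  have e' : ∀ x ∈ O, (c (h (0, x)) * exp (L x * 2⁻¹)) ^ 2 = G x := fun x hx => by
    rw [mul_pow, e _ (a3 x hx), ← Complex.exp_nat_mul, Nat.cast_ofNat, mul_comm (L x),
      mul_inv_cancel_left₀ two_ne_zero, ← b2 x hx]
    have := n _ (h0 (a3 x hx))
    field_simp
  refine ⟨fun x => c (h (0, x)) * exp (L x * 2⁻¹), fun x hx => ⟨fsm_of_sq (((hc.comp c0 a3).mul (b1.mul continuousOn_const).cexp).continuousAt
    (hO.mem_nhds hx)) (hG x hx).1 (eventually_of_mem (hO.mem_nhds hx) e')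
      fun k => n x hx (by rw [← e' x hx, k]; simp), ?_, e' x hx⟩⟩
  exact (pow_eq_one_iff_of_nonneg (norm_nonneg _) two_ne_zero).1 (by rw [← norm_pow, e' x hx, (hG x hx).2])

/-- **extension of an intertwiner with a prescribed section of the determinant line** -/
theorem exists_iw_dfm [T2Space M] [SigmaCompactSpace M] {d₀ : Sc I M ι κ} {d : Sc I M ι' l}
    (k : Dfm O O₀) (hO : IsOpen O) (h0 : O₀ ⊆ O) (h₀ : d₀.On O) (h : d.On O) {σ : M → Matrix l κ ℂ}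
    (hσ : Iw d₀ d σ O₀) {j : M → Matrix (κ × κ) Unit ℂ} (hj : Uni I (fun _ => 1) d₀.det j O)
    {t : M → Matrix (l × l) Unit ℂ} (ht : Uni I (fun _ => 1) d.det t O)
    (e : ∀ x ∈ O₀, kk σ x * j x = t x) : ∃ σ', Iw d₀ d σ' O ∧ ∀ x ∈ O, kk σ' x * j x = t x := by
  obtain ⟨w, hw⟩ := k.eqv hO h0 h₀ h ⟨σ, hσ⟩
  have h1 := hw.sec h₀ h hj
  have h2 := fun x hx => Lab56.piso_ratio (by simp) (h1.iso x hx) (ht.iso x hx)
  obtain ⟨c, hc⟩ := Iw.ratio (h₀.mono h0) (h.mono h0) (hw.mono h0) hσ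
  obtain ⟨c', h3⟩ := exists_sqrt_dfm (I := I) (G := fun x => ((kk w x * j x)ᴴ * t x).trace) (c := c) k hO h0
    (fun x hx => ⟨((h1.sm x hx).ct.mul (ht.sm x hx)).trace, (h2 x hx).2⟩)
    (fun x hx => (hc x hx).1.continuousAt.continuousWithinAt) fun x hx =>
      Lab56.smul_cancel (by simp) (h1.iso x (h0 hx)) (by
        rw [← (h2 x (h0 hx)).1, ← e x hx, ← Matrix.smul_mul, ← kk_smul, kk, kk, (hc x hx).2.2])
  exact ⟨_, hw.smul' (fun x hx => (h3 x hx).1) fun x hx => (h3 x hx).2.1, fun x hx => by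
    rw [kk_smul, Matrix.smul_mul, (h3 x hx).2.2, ← (h2 x hx).1]⟩

theorem iw_pull_id {d₀ : Sc I M ι κ} {d : Sc I M ι' l} {σ : M → Matrix l κ ℂ} {f : M → M}
    (h : Iw d₀ d σ O) (hf : ∀ x ∈ O, f =ᶠ[𝓝 x] id) : Iw d₀ (d.pull I f) σ O :=
  h.of_eq (fun _ _ => ⟨rfl, rfl, rfl⟩) fun x hx => by
    have e : f x = x := (hf x hx).self_of_nhds
    refine ⟨funext fun a => ?_, congrArg d.m.p e, congrArg d.m.r e⟩
    have e' : mfderiv I I f x = ContinuousLinearMap.id ℝ E := (hf x hx).mfderiv_eq.trans mfderiv_id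
    exact (congrArg (fun L : E →L[ℝ] E => L.inverse (d.e a (f x))) e').trans
      ((congrArg (fun L : E →L[ℝ] E => L (d.e a (f x))) ContinuousLinearMap.inverse_id).trans
        (congrArg (fun y => (d.e a y : E)) e))

end gen

variable {EN HN : Type} [NormedAddCommGroup EN] [NormedSpace ℝ EN] [FiniteDimensional ℝ EN]
  [TopologicalSpace HN] {IN : ModelWithCorners ℝ EN HN} [IN.Boundaryless]
  {N : Type} [TopologicalSpace N] [ChartedSpace HN N] [IsManifold IN ∞ N] [T2Space N]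
  {T : Tb IN N} {v : ℝ → Z2} {O : Set (Rod53.X T v)}

/-- the vertical push in the tube -/
def psh (β : ℝ → ℝ) (q : ℝ × (Circle × ℂ) × ℝ) : (Circle × ℂ) × ℝ :=
  ((q.2.1.1, (((1 - q.1) * max ‖q.2.1.2‖ (β q.2.2) + q.1 * ‖q.2.1.2‖ : ℝ) : ℂ) * dir q.2.1.2), q.2.2)

/-- the complement of the axis deforms out of the region under a graph -/
theorem dfm_graph {β : ℝ → ℝ} (hβ : Continuous β) {B : ℝ} (hb : ∀ t, β t ≤ B)
    (hO : T.ov v {q | q.2 ≤ β q.1} ∩ off T v ⊆ O) :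
    Dfm (O ∩ off T v) ((O ∩ off T v) \ T.ov v {q | q.2 < β q.1}) := by
  classical
  let e := (T.rod v uni_std).toOpenPartialHomeomorph
  let h : ℝ × Rod53.X T v → Rod53.X T v := fun q =>
    if q.2 ∈ T.tor v then T.rod v uni_std (psh β (q.1, e.symm q.2)) else q.2
  have h1 : ∀ x ∈ T.tor v, x ∈ off T v → ∃ w : (Circle × ℂ) × ℝ, w.1.2 ≠ 0 ∧ T.rod v uni_std w = x :=
    fun x a b => ((mem_tube (J := univ)).1 ⟨⟨a, b⟩, trivial⟩).imp fun _ k => ⟨k.1.1, k.2⟩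
  have h2 : ∀ t, ∀ w : (Circle × ℂ) × ℝ, w.1.2 ≠ 0 →
      h (t, T.rod v uni_std w) = T.rod v uni_std (psh β (t, w)) := fun t w a => by
    simp only [h, if_pos (T.rod_mem_tor uni_std (w := w) (Or.inl a))]
    rw [show e.symm (T.rod v uni_std w) = w from e.left_inv (Or.inl a)]
  have h3 : ∀ t ∈ Icc (0 : ℝ) 1, ∀ w : (Circle × ℂ) × ℝ, w.1.2 ≠ 0 → ∃ ρ : ℝ, ‖w.1.2‖ ≤ ρ ∧
      ρ ≤ max ‖w.1.2‖ (β w.2) ∧ (t = 0 → β w.2 ≤ ρ) ∧ (psh β (t, w)).1.2 = ρ * dir w.1.2 :=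
    fun t ht w _ => ⟨_, by nlinarith [le_max_left ‖w.1.2‖ (β w.2), ht.2],
      by nlinarith [le_max_left ‖w.1.2‖ (β w.2), ht.1], fun k => by simp [k], rfl⟩
  have h4 : ∀ t, ∀ w : (Circle × ℂ) × ℝ, β w.2 ≤ ‖w.1.2‖ → psh β (t, w) = w := fun t w a => by
    refine Prod.ext (Prod.ext rfl ?_) rfl
    simp only [psh, max_eq_left a]
    rw [← add_mul, sub_add_cancel, one_mul, Glue52.norm_mul_dir]
  have h5 : ∀ w : (Circle × ℂ) × ℝ, w.1.2 ≠ 0 → T.bs v (T.rod v uni_std w) = (w.2, ‖w.1.2‖) :=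
    fun w a => Prod.ext (T.time_rod _ (Or.inl a)) (T.yy_rod _ (Or.inl a))
  have h6 : ∀ t ∈ Icc (0 : ℝ) 1, ∀ w : (Circle × ℂ) × ℝ, w.1.2 ≠ 0 → (psh β (t, w)).1.2 ≠ 0 :=
    fun t ht w a => by
      obtain ⟨ρ, b1, -, -, b2⟩ := h3 t ht w a
      exact b2 ▸ mul_ne_zero (Complex.ofReal_ne_zero.2 ((norm_pos_iff.2 a).trans_le b1).ne')
        (Circle.coe_ne_zero _)
  have h7 : ∀ t ∈ Icc (0 : ℝ) 1, ∀ x ∈ O ∩ off T v, h (t, x) ∈ O ∩ off T v ∧
      (t = 0 → h (t, x) ∉ T.ov v {q | q.2 < β q.1}) := fun t ht x hx => by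
    by_cases a : x ∈ T.tor v
    · obtain ⟨w, b, rfl⟩ := h1 x a hx.2
      obtain ⟨ρ, b1, b2, b3, b4⟩ := h3 t ht w b
      have b5 := h5 _ (h6 t ht w b)
      rw [b4, norm_mul, Circle.norm_coe, mul_one, Complex.norm_of_nonneg ((norm_nonneg _).trans b1)] at b5
      have b6 := (rod_mem_off (T := T) (v := v) uni_std (Or.inl (h6 t ht w b))).2 (h6 t ht w b)
      rw [h2 t w b]
      refine ⟨⟨?_, b6⟩, fun k q => ?_⟩
      · rcases le_total (β w.2) ‖w.1.2‖ with k | k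
        · rw [h4 t w k]; exact hx.1
        · exact hO ⟨⟨T.rod_mem_tor _ (Or.inl (h6 t ht w b)), by
            rw [mem_preimage, b5]; exact b2.trans_eq (max_eq_right k)⟩, b6⟩
      · have := q.2
        rw [mem_preimage, b5] at this
        exact (b3 k).not_gt this
    · simp only [h, if_neg a]
      exact ⟨hx, fun _ k => a k.1⟩
  refine ⟨h, fun q hq => ContinuousAt.continuousWithinAt ?_, fun t ht x hx => (h7 t ht x hx).1,
    fun x hx => ⟨(h7 0 ⟨le_rfl, zero_le_one⟩ x hx).1, (h7 0 ⟨le_rfl, zero_le_one⟩ x hx).2 rfl⟩,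
    fun x hx => ?_⟩
  · obtain ⟨t, x⟩ := q
    by_cases a : x ∈ T.tor v
    · obtain ⟨w, b, rfl⟩ := h1 x a hq.2.2
      have c1 : ContinuousAt (psh β) (t, w) := by
        have : ContinuousAt (fun q : ℝ × (Circle × ℂ) × ℝ => dir q.2.1.2) (t, w) :=
          ContinuousAt.comp (g := dir) (f := fun q : ℝ × (Circle × ℂ) × ℝ => q.2.1.2) (x := (t, w))
            (Glue52.contMDiffAt_dir b).continuousAt (by fun_prop)
        unfold psh
        fun_prop
      have c2 : ContinuousAt (fun q : ℝ × Rod53.X T v => (q.1, e.symm q.2)) (t, T.rod v uni_std w) :=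
        continuousAt_fst.prodMk (ContinuousAt.comp (f := Prod.snd)
          (e.continuousAt_symm (e.map_source (Or.inl b))) continuousAt_snd)
      have c3 : e.symm (T.rod v uni_std w) = w := e.left_inv (Or.inl b)
      refine ((cont_std (T := T) (v := v) (h6 t hq.1 w b)).comp_of_eq (c1.comp_of_eq c2 (by rw [c3]))
        (by simp only [Function.comp_apply, c3])).congr ?_
      filter_upwards [(T.isOpen_tor.preimage continuous_snd).mem_nhds a] with q hq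
      exact (if_pos hq).symm
    · refine continuousAt_snd.congr ?_
      filter_upwards [((T.isClosed_ov (O := {q | q.2 ≤ B}) (isClosed_le continuous_snd continuous_const)
        fun _ k => k).isOpen_compl.preimage continuous_snd).mem_nhds fun k => a k.1,
        (isOpen_off.preimage continuous_snd).mem_nhds hq.2.2]
      rintro ⟨s, y⟩ b1 b2
      by_cases a' : y ∈ T.tor v
      · obtain ⟨w, b, rfl⟩ := h1 y a' b2
        rw [h2 s w b, h4 s w ((hb _).trans (le_of_not_ge fun k => b1 ⟨a', by rwa [mem_preimage, h5 w b]⟩))]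
      · exact (if_neg a').symm
  · by_cases a : x ∈ T.tor v
    · obtain ⟨w, b, rfl⟩ := h1 x a hx.2
      rw [h2 1 w b]
      simp [psh, Glue52.norm_mul_dir]
    · exact if_neg a

theorem Dfm.mono' {X : Type*} [TopologicalSpace X] {A B C : Set X} (h : Dfm A B) (k : B ⊆ C) : Dfm A C :=
  let ⟨f, a, b, c, d⟩ := h; ⟨f, a, b, fun x hx => k (c x hx), d⟩

/-- the complement of the axis deforms out of a half disc -/
theorem dfm_disc {c r : ℝ} (hr : 0 ≤ r) (hO : T.disc v c (Iic r) ∩ off T v ⊆ O) :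
    Dfm (O ∩ off T v) ((O ∩ off T v) \ T.disc v c (Iio r)) := by
  refine Dfm.mono' (dfm_graph (β := fun t => √(r ^ 2 - (t - c) ^ 2)) (by fun_prop) (B := r)
    (fun t => Real.sqrt_le_iff.2 ⟨hr, by linarith [sq_nonneg (t - c)]⟩) fun x hx => hO ⟨⟨hx.1.1, ?_⟩, hx.2⟩)
    (sdiff_subset_sdiff_right fun x hx => ⟨hx.1, ?_⟩)
  · obtain ⟨w, b, rfl⟩ := (mem_tube (J := univ)).1 ⟨⟨hx.1.1, hx.2⟩, trivial⟩
    have h1 : T.yy v _ ≤ √(r ^ 2 - (T.time v _ - c) ^ 2) := hx.1.2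
    have h2 := T.yy_rod (v := v) uni_std (Or.inl b.1)
    have h3 := (Real.le_sqrt' (h2 ▸ norm_pos_iff.2 b.1)).1 h1
    exact Real.sqrt_le_iff.2 ⟨hr, by simp only [Tb.bs]; linarith⟩
  · have h1 : √((T.time v x - c) ^ 2 + T.yy v x ^ 2) < r := hx.2
    rw [Real.sqrt_lt' ((Real.sqrt_nonneg _).trans_lt h1)] at h1
    exact Real.lt_sqrt_of_sq_lt (by simp only [Tb.bs]; linarith)

variable {ι ι' κ l μ : Type} [Fintype ι] [Fintype ι'] [Fintype κ] [Fintype l] [Fintype μ] [DecidableEq ι]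
  [DecidableEq ι'] [DecidableEq κ] [DecidableEq l] [SigmaCompactSpace (Rod53.X T v)]
  {d₀ : Sc (𝓡 4) (Rod53.X T v) ι κ} {d : Sc (𝓡 4) (Rod53.X T v) ι' l}
  {j : Rod53.X T v → Matrix (κ × κ) Unit ℂ} {σ : Rod53.X T v → Matrix l κ ℂ} {m m' : ℝ → ℤ}

/-- the label of a pull-back is read off from the determinant line -/
theorem lab_move {f : Rod53.X T v → Rod53.X T v} (hO : IsOpen O)
    (hf : ∀ x ∈ O, IsLocalDiffeomorphAt (𝓡 4) (𝓡 4) ∞ f x) (hm : MapsTo f O O) {W : Set (Rod53.X T v)}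
    (k : Dfm (O ∩ off T v) W) (hW : W ⊆ O ∩ off T v) (hi : ∀ x ∈ W, f =ᶠ[𝓝 x] id)
    (h₀ : d₀.On (O ∩ off T v)) (hj : Uni (𝓡 4) (fun _ => 1) d₀.det j (O ∩ off T v)) (h : d.On O)
    (hσ : Iw d₀ d σ W) {q : Rod53.X T v → Matrix μ μ ℂ} {s : Rod53.X T v → Matrix μ Unit ℂ}
    (hq : TL T v m' q s O) {U : Rod53.X T v → Matrix (l × l) μ ℂ}
    (hU : Uni (𝓡 4) q (fun x => d.det (f x)) U O) (e : ∀ x ∈ W, U x * s x = kk σ x * j x) :
    ∃ σ', Iw d₀ (d.pull (𝓡 4) f) σ' (O ∩ off T v) ∧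
      TL T v m' (d.pull (𝓡 4) f).det (fun x => kk σ' x * j x) O := by
  have h1 : TL T v m' (d.pull (𝓡 4) f).det (fun x => U x * s x) O := hq.trans hO hU
  obtain ⟨σ', a, b⟩ := exists_iw_dfm k (hO.inter isOpen_off) hW h₀
    ((h.pull hf hm).mono inter_subset_left) (iw_pull_id hσ hi) hj h1.fr fun x hx => (e x hx).symm
  exact ⟨σ', a, h1.congr_s hO b⟩

open Crest.Agent.X212.Tau19 in
/-- the twist along a sphere, given the isometry of the determinant lines -/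
theorem lab_tau {a b a' : Z2} {n e : ℕ} {c k R r : ℝ} (S : Sph v a b a' n c k R) (hn : n * e = 2)
    (hr : r ∈ Ioo (k ^ 2 / 2) R) (hO : IsOpen O) (hD : T.disc v c (Iio R) ⊆ O)
    (h₀ : d₀.On (O ∩ off T v)) (hj : Uni (𝓡 4) (fun _ => 1) d₀.det j (O ∩ off T v)) (h : d.On O)
    (hσ : Iw d₀ d σ (O ∩ off T v)) {q : Rod53.X T v → Matrix μ μ ℂ} {s : Rod53.X T v → Matrix μ Unit ℂ}
    (hq : TL T v m' q s O) {U : Rod53.X T v → Matrix (l × l) μ ℂ}
    (hU : Uni (𝓡 4) q (fun x => d.det (S.tau T hn hr x)) U O)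
    (hs : ∀ x ∈ O, x ∉ S.K T (rh k r) → x ∈ off T v → U x * s x = kk σ x * j x) :
    ∃ σ', Iw d₀ (d.pull (𝓡 4) (S.tau T hn hr)) σ' (O ∩ off T v) ∧
      TL T v m' (d.pull (𝓡 4) (S.tau T hn hr)).det (fun x => kk σ' x * j x) O := by
  obtain ⟨r', r1, r2⟩ := exists_between hr.2
  have r0 : 0 < r := lt_of_le_of_lt (by positivity) hr.1
  have hK : S.K T (rh k r) ⊆ T.disc v c (Iio r') :=
    fun x hx => ⟨(S.K_subset T hr.2 hx).1, lt_of_le_of_lt (S.K_subset T hr.2 hx).2 r1⟩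
  exact lab_move hO (fun x _ => (S.tau T hn hr).isLocalDiffeomorph x)
    (fun x hx => (S.tau_mem T hn hr (Or.inl (hK.trans fun y hy => hD ⟨hy.1, lt_trans hy.2 r2⟩))).2 hx)
    (dfm_disc (r0.trans r1).le fun y hy => hD ⟨hy.1.1, lt_of_le_of_lt hy.1.2 r2⟩) sdiff_subset
    (fun x hx => S.tau_ev T hn hr fun q => hx.2 (hK q)) h₀ hj h (hσ.mono sdiff_subset) hq hU
    fun x hx => hs x hx.1.1 (fun q => hx.2 (hK q)) hx.1.2

end Crest.Agent.X212.Cls19

namespace Crest.Agent.X212.Cls19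

open Crest.Agent.X212.Tau19

variable {EN HN : Type} [NormedAddCommGroup EN] [NormedSpace ℝ EN] [FiniteDimensional ℝ EN]
  [TopologicalSpace HN] {IN : ModelWithCorners ℝ EN HN} [IN.Boundaryless]
  {N : Type} [TopologicalSpace N] [ChartedSpace HN N] [IsManifold IN ∞ N] [T2Space N]
  {T : Tb IN N} {s : ℤ → Z2} {i : ℤ} {n e : ℕ} {r : ℝ} {w w' : ℤ → ℤ} {O : Set (Rod53.X T (wd s))}
  [SigmaCompactSpace (Rod53.X T (wd s))]

/-- a line whose orders differ from given ones at one rod between two vertices -/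
theorem exists_TL_update {κ : Type} [Fintype κ] (h1 : Rod53.Uni (s (i - 1)) (s i))
    (h2 : Rod53.Uni (s i) (s (i + 1))) (hw : ∀ j, j ≠ i → w' j = w j)
    {p : Rod53.X T (wd s) → Matrix κ κ ℂ} {σ : Rod53.X T (wd s) → Matrix κ Unit ℂ}
    (h : TL T (wd s) (wm s w) p σ O) :
    ∃ (q : Rod53.X T (wd s) → Matrix (κ × Option Bool) (κ × Option Bool) ℂ)
      (σ' : Rod53.X T (wd s) → Matrix (κ × Option Bool) Unit ℂ), TL T (wd s) (wm s w') q σ' O := by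
  obtain ⟨q, t, k⟩ := exists_TL_wd (a := s) (n := w' - w) T fun j => by
    by_cases e1 : j = i
    · exact ⟨_, e1 ▸ dual_left h1 _ _, e1 ▸ dual_right h1 _ _⟩
    by_cases e2 : j = i + 1
    · subst e2
      rw [add_sub_cancel_right]
      exact ⟨_, dual_left h2 _ _, dual_right h2 _ _⟩
    · exact ⟨0, by simp [hw (j - 1) (by omega)], by simp [hw j e1]⟩
  have := h.tens (k.mono (subset_univ O))
  rw [← wm_add, add_sub_cancel] at this
  exact ⟨_, _, this⟩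

variable {ι ι' κ l : Type} [Fintype ι] [Fintype ι'] [Fintype κ] [Fintype l] [DecidableEq ι]
  [DecidableEq ι'] [DecidableEq κ] [DecidableEq l]
  {d₀ : Sc (𝓡 4) (Rod53.X T (wd s)) ι κ} {d : Sc (𝓡 4) (Rod53.X T (wd s)) ι' l}
  {j : Rod53.X T (wd s) → Matrix (κ × κ) Unit ℂ} {σ : Rod53.X T (wd s) → Matrix l κ ℂ}

/-- **REFL** : the twists reflect the labels on words -/
theorem lab_tau_wd (hu : Rod53.Uni (s (i - 1)) (s i)) (h : s (i + 1) = -s (i - 1) + (n : ℤ) • s i)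
    (hn : n * e = 2) (hr : r ∈ Ioo ((1 : ℝ) ^ 2 / 2) (3 / 2)) (hw : ∀ j, j ≠ i → w' j = w j)
    (hi : w' i = -w i + e * (w (i - 1) + w (i + 1))) (hO : IsOpen O)
    (hD : T.disc (wd s) (i + 1 / 2) (Iio (3 / 2)) ⊆ O) (h₀ : d₀.On (O ∩ off T (wd s)))
    (hj : Uni (𝓡 4) (fun _ => 1) d₀.det j (O ∩ off T (wd s))) (hd : d.On O)
    (hσ : Iw d₀ d σ (O ∩ off T (wd s))) (hl : TL T (wd s) (wm s w) d.det (fun x => kk σ x * j x) O) :
    ∃ σ', Iw d₀ (d.pull (𝓡 4) ((sph_wd hu h).tau T hn hr)) σ' (O ∩ off T (wd s)) ∧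
      TL T (wd s) (wm s w') (d.pull (𝓡 4) ((sph_wd hu h).tau T hn hr)).det (fun x => kk σ' x * j x) O := by
  obtain ⟨q, t, hq⟩ := exists_TL_update hu (sph_wd hu h).uni' hw hl
  obtain ⟨U, a, b⟩ := exists_uni_wd hu h T hn hr hw hi hO hD hl hq
  exact lab_tau _ hn hr hO hD h₀ hj hd hσ hq a b

end Crest.Agent.X212.Cls19
end
end

-- ▼ part X212/Rfl19/Geo
section

/-!
# X212 / Rfl19, part Geo (helper19): the reflection of classes on a rod manifold with two vertices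

* `Or2 v m a b c x y ma mb mc` : the function `m` has the orders `ma`, `mb`, `mc` along the rods `a`, `b`, `c`;
* `exists_refl` : a positive diffeomorphism, the identity near the ends, that reflects the middle order.
-/

set_option autoImplicit false
set_option linter.unusedSectionVars false

open Set Filter Topology Function Matrix
open scoped ContDiff Manifold
open Crest.Agent.R208.F (Ext)
open Crest.Agent.X212.Line51 Crest.Agent.X212.Lab56 Crest.Agent.X212.Tau19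
open Crest.Agent.X212.Rod53 hiding Uni X cj
open Crest.Agent.X212.Int54 (Ori)

noncomputable section

namespace Crest.Agent.X212.Rfl19

/-- the orders along a word with one vertex -/
def Or1 (v : ℝ → Z2) (m : ℝ → ℤ) (a b : Z2) (J : Set ℝ) (ma mb : ℤ) : Prop :=
  ∃ η, dot η a = ma ∧ dot η b = mb ∧ ∀ t ∈ J, m t = dot η (v t)

/-- the orders along a word with two vertices -/
def Or2 (v : ℝ → Z2) (m : ℝ → ℤ) (a b c : Z2) (x y : ℝ) (ma mb mc : ℤ) : Prop :=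
  Or1 v m a b (Iio y) ma mb ∧ Or1 v m b c (Ioi x) mb mc

variable {v : ℝ → Z2} {m m' : ℝ → ℤ} {a b c η η' : Z2} {x y t : ℝ} {ma mb mb' mc : ℤ}

theorem rep_of {J : Set ℝ} (hJ : IsOpen J) (h : ∀ t ∈ J, m t = dot η (v t)) (ht : t ∈ J) : Rep v m η t :=
  eventually_of_mem (hJ.mem_nhds ht) fun s hs => (h s hs).symm

theorem dot_eq_pm {w : Z2} (h : PM w a) (e : dot η a = dot η' a) : dot η w = dot η' w := by
  rcases h with rfl | rfl
  · exact e
  · rw [dot_neg', dot_neg', e]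

theorem dot_smul' (η a : Z2) (k : ℤ) : dot η (k • a) = k * dot η a := by simp [dot]; ring

theorem pm_sg {σ : ℤ} (h : σ = 1 ∨ σ = -1) (a : Z2) : PM a (σ • a) := by
  rcases h with rfl | rfl
  · exact Or.inl (one_smul _ _).symm
  · exact Or.inr (by simp)

theorem two_cases {n e : ℤ} (h : n * e = 2) : ∃ (ε : ℤ) (n₀ e₀ : ℕ), (ε = 1 ∨ ε = -1) ∧ n₀ * e₀ = 2 ∧
    n = ε * n₀ ∧ e = ε * e₀ := by
  have h1 : n.natAbs * e.natAbs = 2 := by rw [← Int.natAbs_mul, h]; rfl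
  rcases lt_trichotomy n 0 with k | k | k
  · have : e < 0 := by nlinarith
    exact ⟨-1, _, _, Or.inr rfl, h1, by omega, by omega⟩
  · simp [k] at h
  · have : 0 < e := by nlinarith
    exact ⟨1, _, _, Or.inl rfl, h1, by omega, by omega⟩

variable {EN HN : Type} [NormedAddCommGroup EN] [NormedSpace ℝ EN] [FiniteDimensional ℝ EN]
  [TopologicalSpace HN] {IN : ModelWithCorners ℝ EN HN} [IN.Boundaryless]
  {N : Type} [TopologicalSpace N] [ChartedSpace HN N] [IsManifold IN ∞ N] [T2Space N] {T : Tb IN N}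
  {ι ι' ι'' κ l n : Type} [Fintype ι] [Fintype ι'] [Fintype ι''] [Fintype κ] [Fintype l] [Fintype n]
  [DecidableEq ι] [DecidableEq ι'] [DecidableEq ι''] [DecidableEq κ] [DecidableEq l] [DecidableEq n]
  {r : Sc (𝓡 4) (Rod53.X T v) ι κ} {j : Rod53.X T v → Matrix (κ × κ) Unit ℂ}
  {d : Sc (𝓡 4) (Rod53.X T v) ι' l} {d' : Sc (𝓡 4) (Rod53.X T v) ι'' n}

/-- **REFL** -/
theorem exists_refl [SigmaCompactSpace (Rod53.X T v)] (hxy : x < y) (h1 : ∀ t < y, t ∈ Jv v a b x)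
    (h2 : ∀ t, x < t → t ∈ Jv v b c y) (hu : Rod53.Uni a b) {σ τ k e : ℤ} (hσ : σ = 1 ∨ σ = -1)
    (hτ : τ = 1 ∨ τ = -1) (hk : k * e = 2) (hs : σ • a + τ • c = k • b)
    (hb : mb' = -mb + e * (σ * ma + τ * mc)) (o : Or2 v m a b c x y ma mb mc) (o' : Or2 v m' a b c x y ma mb' mc)
    (hr : Rf r j (univ ∩ off T v)) (hd : d.On univ) (hd' : d'.On univ) (h : Lab r j d m univ)
    (h' : Lab r j d' m' univ) :
    ∃ φ : Rod53.X T v ≃ₘ^∞⟮𝓡 4, 𝓡 4⟯ Rod53.X T v, (∀ O, Ori (𝓡 4) O → Orx52.Pos (𝓡 4) (𝓡 4) φ univ O O) ∧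
      (∃ A B, ∀ p, T.time v p ∉ Icc A B → φ p = p) ∧ Eqv (d.pull (𝓡 4) φ) d' univ := by
  obtain ⟨ε, k₀, e₀, hε, hn, rfl, rfl⟩ := two_cases hk
  have q : √(y - x) ^ 2 = y - x := Real.sq_sqrt (sub_pos.2 hxy).le
  have q1 : (x + y) / 2 - √(y - x) ^ 2 / 2 = x := by rw [q]; ring
  have q2 : (x + y) / 2 + √(y - x) ^ 2 / 2 = y := by rw [q]; ring
  have S : Sph v (σ • a) (ε • b) (τ • c) k₀ ((x + y) / 2) √(y - x) (y - x + 1) := by
    refine ⟨((pm_sg hε b).symm.uni ((pm_sg hσ a).symm.uni hu).symm).symm, ?_, Real.sqrt_pos.2 (sub_pos.2 hxy),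
      by rw [q]; linarith, fun t ht => ?_, fun t ht => ?_⟩
    · rw [smul_smul, mul_comm, ← hs, neg_add_cancel_left]
    · rw [q2] at ht
      rw [q1]
      exact Jv_congr (h1 t ht.2) (pm_sg hσ a) (pm_sg hε b)
    · rw [q1] at ht
      rw [q2]
      exact Jv_congr (h2 t ht.1) (pm_sg hε b) (pm_sg hτ c)
  have hR : y - x ∈ Ioo (√(y - x) ^ 2 / 2) (y - x + 1) := ⟨by rw [q]; linarith, lt_add_one _⟩
  obtain ⟨⟨η₁, a1, a2, a3⟩, η₂, b1, b2, b3⟩ := o
  obtain ⟨⟨η₁', c1, -, c3⟩, η₂', d1, d2, d3⟩ := o'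
  obtain ⟨s, i, hl⟩ := h
  obtain ⟨s', i', hl'⟩ := id h'
  obtain ⟨U, u1, u2⟩ := S.exists_uni_TL T hn hR isOpen_univ (subset_univ _) hl hl'
    (fun t ht => rep_of isOpen_Iio a3 (q2 ▸ ht.2)) (fun t ht => rep_of isOpen_Ioi b3 (q1 ▸ ht.1))
    (fun t ht => rep_of isOpen_Iio c3 (q2 ▸ ht.2)) (fun t ht => rep_of isOpen_Ioi d3 (q1 ▸ ht.1))
    (fun t ht => by
      rw [q1, q2, mem_Icc, not_and_or, not_le, not_le] at ht
      rcases ht with k | k
      · rw [a3 t (k.trans hxy), c3 t (k.trans hxy)]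
        exact dot_eq_pm (Jr.pm (Jv.left (h1 t (k.trans hxy)) k)) (c1.trans a1.symm)
      · rw [b3 t (hxy.trans k), d3 t (hxy.trans k)]
        exact dot_eq_pm (Jr.pm (Jv.right (h2 t (hxy.trans k)) k)) (d2.trans b2.symm)) (by
      simp only [dot_smul', a1, b1, b2, d1, hb]
      rcases hε with rfl | rfl <;> ring)
  refine ⟨S.tau T hn hR, fun O => S.pos_tau T hn hR, ⟨(x + y) / 2 - (y - x), (x + y) / 2 + (y - x),
    fun p hp => S.tau_off_disc T hn hR fun k => hp ?_⟩, Lab.eqv isOpen_univ hr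
      (hd.pull (fun p _ => (S.tau T hn hR).isLocalDiffeomorph p) (mapsTo_univ _ _)) hd'
      (Cls19.lab_tau S hn hR isOpen_univ (subset_univ _) hr.ok hr.sec hd i hl' u1 u2) h'⟩
  have := abs_le.1 ((T.abs_time_le _ p).trans k.2)
  exact ⟨by linarith [this.1], by linarith [this.2]⟩

end Crest.Agent.X212.Rfl19
end
end

-- ▼ part X212/Rfl19/Th

/-!
# X212 / Rfl19, part Th (helper19): naturality on rod manifolds and the reflection law of a theory

* calculus of `Ag` and `Pb`;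
* `nat_rz` : NAT for a diffeomorphism of rod manifolds; `Lb` : a class has given orders; `refl_th` : REFL.
-/

set_option autoImplicit false
set_option linter.unusedSectionVars false

open Set Filter Topology Function
open scoped ContDiff Manifold
open Crest.Agent.X212.Bor5.T Crest.Agent.X212.Lab56 Crest.Agent.X212.Orx52
open Crest.Agent.X212.Rod53 (E4 Z2 Tb Loc Jv Jr)

noncomputable section

namespace Crest.Agent.X212.Rfl19

section Ag

variable {Y Z Z' : Type} {l : Filter ℝ} {f g h : Y × ℝ → Z}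

/-- the two ends of the line -/
def Nd (l : Filter ℝ) : Prop := ∀ δ : ℝ, Tendsto (· + δ) l l

theorem nd_bot : Nd atBot := fun δ => tendsto_atBot_add_const_right _ δ tendsto_id
theorem nd_top : Nd atTop := fun δ => tendsto_atTop_add_const_right _ δ tendsto_id

theorem ag_of_eq (e : ∀ᶠ t in l, ∀ y, f (y, t) = g (y, t)) : Ag l f g := ⟨0, by simpa using e⟩

theorem ag_refl : Ag l f f := ag_of_eq (.of_forall fun _ _ => rfl)

theorem ag_symm (hl : Nd l) (a : Ag l f g) : Ag l g f :=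
  let ⟨δ, e⟩ := a; ⟨-δ, ((hl (-δ)).eventually e).mono fun t k y => by simpa using (k y).symm⟩

theorem ag_trans (hl : Nd l) (a : Ag l f g) (b : Ag l g h) : Ag l f h :=
  let ⟨δ, e⟩ := a
  let ⟨δ', e'⟩ := b
  ⟨δ + δ', (e.and ((hl δ).eventually e')).mono fun t k y => by rw [k.1 y, k.2 y, add_assoc]⟩

theorem ag_comp (a : Ag l f g) (φ : Z → Z') : Ag l (φ ∘ f) (φ ∘ g) :=
  let ⟨δ, e⟩ := a; ⟨δ, e.mono fun _ k y => congrArg φ (k y)⟩

end Ag

section Pb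

variable {E : Type} [NormedAddCommGroup E] [NormedSpace ℝ E] [FiniteDimensional ℝ E]
  {H : Type} [TopologicalSpace H] {I : ModelWithCorners ℝ E H}
  {M : Type} [TopologicalSpace M] [ChartedSpace H M] [IsManifold I ∞ M]
  {E' : Type} [NormedAddCommGroup E'] [NormedSpace ℝ E'] [FiniteDimensional ℝ E']
  {H' : Type} [TopologicalSpace H'] {I' : ModelWithCorners ℝ E' H'}
  {N : Type} [TopologicalSpace N] [ChartedSpace H' N] [IsManifold I' ∞ N]
  {E'' : Type} [NormedAddCommGroup E''] [NormedSpace ℝ E''] [FiniteDimensional ℝ E'']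
  {H'' : Type} [TopologicalSpace H''] {I'' : ModelWithCorners ℝ E'' H''}
  {P : Type} [TopologicalSpace P] [ChartedSpace H'' P] [IsManifold I'' ∞ P]
  {f f' : N → M} {g : P → N} {W W' : Set N} {V : Set P} {d : Cls I (univ : Set M)} {s s' : Cls I' (univ : Set N)}
  {u : Cls I'' (univ : Set P)}

theorem res_self {O : Set M} (c : Cls I O) (h : O ⊆ O) : c.res h = c := by
  obtain ⟨a⟩ := c
  rfl

theorem res_res {O O' O'' : Set M} (c : Cls I O) (h : O' ⊆ O) (h' : O'' ⊆ O') :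
    (c.res h).res h' = c.res (h'.trans h) := by
  obtain ⟨a⟩ := c
  rfl

theorem res_pull {O O' : Set M} (c : Cls I O) (h : O' ⊆ O) (hf : ∀ y ∈ W, IsLocalDiffeomorphAt I' I ∞ f y)
    (hm : MapsTo f W O') : (c.res h).pull hf hm = c.pull hf (hm.mono_right h) := by
  obtain ⟨a⟩ := c
  rfl

theorem pull_res {O : Set M} (c : Cls I O) (hf : ∀ y ∈ W, IsLocalDiffeomorphAt I' I ∞ f y) (hm : MapsTo f W O)
    (h : W' ⊆ W) : (c.pull hf hm).res h = c.pull (fun y hy => hf y (h hy)) (hm.mono_left h) := by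
  obtain ⟨a⟩ := c
  rfl

theorem pb_pull (hf : ∀ y ∈ univ, IsLocalDiffeomorphAt I' I ∞ f y) : Pb f univ d (d.pull hf (mapsTo_univ _ _)) :=
  ⟨hf, (res_self _ _).symm⟩

theorem pb_unique (h : Pb f univ d s) (h' : Pb f univ d s') : s = s' :=
  (res_self s _).symm.trans (h.2.symm.trans (h'.2.trans (res_self s' _)))

theorem pb_id : Pb id W s s := ⟨fun x _ => Cyl58.ld_id x, (s.res_eq_pull _).symm⟩

theorem pb_mono (h : Pb f W d s) (k : W' ⊆ W) : Pb f W' d s :=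
  let ⟨a, e⟩ := h; ⟨fun y hy => a y (k hy), by rw [← pull_res d a (mapsTo_univ _ _) k, e, res_res]⟩

theorem pb_congr (h : Pb f W d s) (e : ∀ y ∈ W, f' =ᶠ[𝓝 y] f) : Pb f' W d s :=
  let ⟨a, k⟩ := h
  ⟨fun y hy => Glue52.ld_congr (a y hy) (e y hy), (d.pull_congr a _ _ _ e).symm.trans k⟩

theorem pb_comp (h : Pb f W d s) (h' : Pb g V s u) (hm : MapsTo g V W) : Pb (f ∘ g) V d u := by
  obtain ⟨a, e⟩ := h
  obtain ⟨b, e'⟩ := h'
  refine ⟨fun z hz => (b z hz).comp _ _ (a _ (hm hz)), ?_⟩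
  rw [← d.pull_pull a (mapsTo_univ _ _) b hm, e, res_pull, e']

theorem pb_symm {φ : N ≃ₘ^∞⟮I', I⟯ M} (h : Pb φ univ d s) : Pb φ.symm univ s d := by
  have k := pb_pull (d := s) fun y _ => φ.symm.isLocalDiffeomorph y
  rwa [pb_unique (pb_congr (pb_comp h k (mapsTo_univ _ _)) (f' := id)
    fun _ _ => .of_forall fun y => (φ.apply_symm_apply y).symm) pb_id] at k

end Pb

variable {S : Scene} (θ : Th S) {τ : Tub} {a b e : Z2} {v v' : ℝ → Z2} {hv : Loc v} {hv' : Loc v'}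

/-- **NAT on rod manifolds** -/
theorem nat_rz {i k : S.ι} {c c' : S.κ i k} {f : Fo τ (S.ob i).toO3 a} {g : Fo τ (S.ob k).toO3 e}
    (r : Rz (S.cob c) hv f g) (r' : Rz (S.cob c') hv' f g) (ψ : τ.X v ≃ₘ^∞⟮𝓡 4, 𝓡 4⟯ τ.X v')
    (hψ : Pos (𝓡 4) (𝓡 4) ψ univ (oX hv τ.ori) (oX hv' τ.ori)) (h1 : Ag atBot (ψ ∘ f.cy v) (f.cy v'))
    (h2 : Ag atTop (ψ ∘ g.cy v) (g.cy v')) {d : (S.cob c).L} {d' : (S.cob c').L}
    {d₀ : Cls (𝓡 4) (univ : Set (τ.X v))} {d₀' : Cls (𝓡 4) (univ : Set (τ.X v'))} (p : Pb r.φ univ d d₀)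
    (p' : Pb r'.φ univ d' d₀') (q : Pb ψ univ d₀' d₀) : θ.F c d = θ.F c' d' := by
  have l := fun y (_ : y ∈ univ) => r.φ.symm.isLocalDiffeomorph y
  have k : ∀ {Y : Type} {l : Filter ℝ} {x : Y × ℝ → τ.X v} {y : Y × ℝ → τ.X v'} {z w}, Nd l → Ag l (ψ ∘ x) y →
      Ag l (r.φ ∘ x) z → Ag l (r'.φ ∘ y) w → Ag l ((r.φ.symm.trans (ψ.trans r'.φ)) ∘ z) w := fun {_ _ x _ _ _} n a b c =>
    ag_trans n (ag_comp (ag_symm n b) _) (ag_trans n (ag_of_eq (g := r'.φ ∘ ψ ∘ x) (.of_forall fun _ _ => by simp))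
      (ag_trans n (ag_comp a _) c))
  have t := pb_comp (pb_comp p' q (mapsTo_univ _ _)) (pb_symm p) (mapsTo_univ _ _)
  refine θ.nat c c' ⟨r.φ.symm.trans (ψ.trans r'.φ), ?_⟩ d d' (k nd_bot h1 r.ki r'.ki) (k nd_top h2 r.ko r'.ko) t
  have s := Pos.symm (φ := r.φ.toPartialDiffeomorph) r.pos subset_rfl
  exact (r'.pos.comp hψ (fun y _ => r'.φ.isLocalDiffeomorph y) (fun y _ => ψ.isLocalDiffeomorph y)
    (mapsTo_univ _ _)).comp (s.mono fun y _ => ⟨r.φ.symm y, trivial, r.φ.apply_symm_apply y⟩)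
    (fun y _ => (ψ.trans r'.φ).isLocalDiffeomorph y) l (mapsTo_univ _ _)

variable {ι κ : Type} [Fintype ι] [Fintype κ] [DecidableEq ι] [DecidableEq κ]

/-- the class `d` has the orders `m` -/
def Lb (R : Ref τ.T ι κ) (d : Cls (𝓡 4) (univ : Set (τ.X v))) (m : ℝ → ℤ) : Prop :=
  ∃ D : Dat (𝓡 4) (univ : Set (τ.X v)), (Quot.mk _ D : Cls (𝓡 4) univ) = d ∧ R.Lab D.d m univ

theorem sig (hv : Loc v) : SigmaCompactSpace (τ.X v) :=
  have := τ.T.secondCountable hv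
  sigmaCompact (𝓡 4) _

theorem ag_of_time {A : O3} (f : Fo τ A a) {l : Filter ℝ} {φ : τ.X v → τ.X v} {J : Set ℝ}
    (h : ∀ p, τ.T.time v p ∉ J → φ p = p) (h1 : ∀ᶠ t in l, t ∈ Jr v a) (h2 : ∀ᶠ t in l, t ∉ J) :
    Ag l (φ ∘ f.cy v) (f.cy v) :=
  ag_of_eq ((h1.and h2).mono fun _ k y => h _ (by rw [f.F.time_cyf f.hu y k.1]; exact k.2))

/-- **REFL** -/
theorem refl_th {i k : S.ι} {c : S.κ i k} {f : Fo τ (S.ob i).toO3 a} {g : Fo τ (S.ob k).toO3 e}
    (r : Rz (S.cob c) hv f g) {x y : ℝ} (h : V2 v a b e x y) (hu : Rod53.Uni a b) {σ ρ n n' : ℤ}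
    (hσ : σ = 1 ∨ σ = -1) (hρ : ρ = 1 ∨ ρ = -1) (hn : n * n' = 2) (hs : σ • a + ρ • e = n • b)
    {ma mb mb' mc : ℤ} (hb : mb' = -mb + n' * (σ * ma + ρ * mc)) {R : Ref τ.T ι κ} {m m' : ℝ → ℤ}
    (o : Or2 v m a b e x y ma mb mc) (o' : Or2 v m' a b e x y ma mb' mc) {d d' : (S.cob c).L}
    {d₀ d₀' : Cls (𝓡 4) (univ : Set (τ.X v))}
    (p : Pb r.φ univ d d₀) (p' : Pb r.φ univ d' d₀') (q : Lb R d₀ m) (q' : Lb R d₀' m') : θ.F c d = θ.F c d' := by
  have := sig (τ := τ) hv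
  obtain ⟨D, rfl, q⟩ := q
  obtain ⟨D', rfl, q'⟩ := q'
  obtain ⟨φ, h1, ⟨A, B, h2⟩, h3⟩ := exists_refl h.1 h.2.1 h.2.2 hu hσ hρ hn hs hb o o' (R.rfx _) D.ok D'.ok q q'
  refine (nat_rz θ r r φ (h1 _ (oX_spec _ _).ori) (ag_of_time f h2 ?_ ?_) (ag_of_time g h2 ?_ ?_) p' p
    ⟨fun y _ => φ.isLocalDiffeomorph y, Quot.sound h3⟩).symm
  · exact (eventually_lt_atBot x).mono fun t ht => Rod53.Jv.left (h.2.1 t (ht.trans h.1)) ht
  · exact (eventually_lt_atBot A).mono fun t ht k => k.1.not_gt ht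
  · exact (eventually_gt_atTop y).mono fun t ht => Rod53.Jv.right (h.2.2 t (h.1.trans ht)) ht
  · exact (eventually_gt_atTop B).mono fun t ht k => k.2.not_gt ht

end Crest.Agent.X212.Rfl19
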